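import Vale.Agent.P271.MathlibUsed

open MvPolynomial

namespace Vale.Agent.P271

/-- A smooth weighted complete intersection of codimension `c` in the weighted projective space
`ℙ(a_0, …, a_N)` over `ℂ`: weights `a_i ≥ 1`, polynomials `f_j` weighted homogeneous of degree
`d_j ≥ 1`, such that the Jacobian criterion holds at every nonzero common zero `z` of the `f_j`
(the punctured affine cone `C` is smooth of codimension `c`), and the group `ℂˣ`, acting on `C` by
`t · z = (t ^ a_i z_i)`, acts freely. The variety is `X = C / ℂˣ`, of dimension `N - c`. -/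
structure SmoothWCI (N c : ℕ) where
  /-- the weights -/
  a : Fin (N + 1) → ℕ
  a_pos : ∀ i, 0 < a i
  /-- the degrees -/
  d : Fin c → ℕ
  d_pos : ∀ j, 0 < d j
  /-- the equations -/
  f : Fin c → MvPolynomial (Fin (N + 1)) ℂ
  homogeneous : ∀ j, IsWeightedHomogeneous a (f j) (d j)
  smooth : ∀ z : Fin (N + 1) → ℂ, z ≠ 0 → (∀ j, eval z (f j) = 0) →
    LinearIndependent ℂ (fun (j : Fin c) (i : Fin (N + 1)) => eval z (pderiv i (f j)))
  free : ∀ z : Fin (N + 1) → ℂ, z ≠ 0 → (∀ j, eval z (f j) = 0) →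
    ∀ t : ℂ, t ≠ 0 → (∀ i, t ^ a i * z i = z i) → t = 1

namespace SmoothWCI

variable {N c : ℕ} (X : SmoothWCI N c)

/-- The integer `κ = ∑ d_j - ∑ a_i`, for which `K_X = O_X(κ)` (adjunction). -/
def canonicalDegree : ℤ := ∑ j, (X.d j : ℤ) - ∑ i, (X.a i : ℤ)

/-- The line bundle `O_X(e)` is globally generated: for every point of `X`, represented by a
nonzero common zero `z` of the equations, some weighted homogeneous polynomial of degree `e`
does not vanish at `z`. -/
def GloballyGenerated (e : ℤ) : Prop :=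
  ∀ z : Fin (N + 1) → ℂ, z ≠ 0 → (∀ j, eval z (X.f j) = 0) →
    ∃ g : MvPolynomial (Fin (N + 1)) ℂ,
      IsWeightedHomogeneous (fun i => (X.a i : ℤ)) g e ∧ eval z g ≠ 0

/-- Fujita freeness for all ample line bundles `L = O_X(k)`, `k ≥ 1`:
`K_X + m L` is globally generated for all `m ≥ dim X + 1`. -/
def FujitaFreeness : Prop :=
  ∀ k m : ℕ, 1 ≤ k → N - c + 1 ≤ m → X.GloballyGenerated (X.canonicalDegree + m * k)

end SmoothWCI

end Vale.Agent.P271
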