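import Mathlib.Algebra.Group.Translate
import Mathlib.Algebra.MvPolynomial.Funext
import Mathlib.Algebra.MvPolynomial.PDeriv
import Mathlib.Algebra.Order.Ring.Star
import Mathlib.Algebra.Ring.IsFormallyReal
import Mathlib.Analysis.CStarAlgebra.Classes
import Mathlib.Analysis.Complex.Polynomial.Basic
import Mathlib.Computability.Reduce
import Mathlib.Data.Int.Star
import Mathlib.Order.CompletePartialOrder
import Mathlib.RingTheory.KrullDimension.Polynomial
import Mathlib.RingTheory.MvPolynomial.IrreducibleQuadratic
import Mathlib.RingTheory.Nullstellensatz
import Mathlib.RingTheory.RegularLocalRing.Defs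
import Mathlib.RingTheory.SimpleRing.Principal
import Mathlib.RingTheory.UniqueFactorizationDomain.Finsupp
import Mathlib.Tactic

/-! The part of Mathlib that the development of this folder uses. -/
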